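import Vale.Agent.P096.Defs

/-!
# Statements about linearly close algebras

The auxiliary notions are stated for sets in a normed algebra and used for the sets of elements of
von Neumann algebras in the bounded operators.
-/

namespace Vale.Agent.P096.Linear

universe u

/-- The function is additive and homogeneous on the set. -/
def IsLinearOn {A : Type u} [Add A] [SMul ℂ A] (s : Set A) (T : A → A) : Prop :=
  (∀ x ∈ s, ∀ y ∈ s, T (x + y) = T x + T y) ∧ ∀ (c : ℂ), ∀ x ∈ s, T (c • x) = c • T x

/-- A linear map from `s` to `t` within `δ` of the inclusion. -/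
def IsNearMap {A : Type u} [SeminormedAddCommGroup A] [SMul ℂ A] (s t : Set A) (δ : ℝ)
    (T : A → A) : Prop :=
  IsLinearOn s T ∧ ∀ x ∈ s, T x ∈ t ∧ ‖T x - x‖ ≤ δ * ‖x‖

/-- A linear projection of `s` onto `t` bounded by `c`. -/
def IsBoundedProj {A : Type u} [SeminormedAddCommGroup A] [SMul ℂ A] (s t : Set A) (c : ℝ)
    (P : A → A) : Prop :=
  IsLinearOn s P ∧ (∀ x ∈ s, P x ∈ t ∧ ‖P x‖ ≤ c * ‖x‖) ∧ ∀ x ∈ t, P x = x

/-- A unitary within `ε` of one carries `s` onto `t`. -/
def ConjWithin {A : Type u} [NormedRing A] [StarRing A] (s t : Set A) (ε : ℝ) : Prop :=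
  ∃ v ∈ unitary A, ‖v - 1‖ < ε ∧ (fun x => v * x * star v) '' s = t

/-- The elements of a von Neumann algebra. -/
def carrierSet {H : Type u} [NormedAddCommGroup H] [InnerProductSpace ℂ H] [CompleteSpace H]
    (M : VonNeumannAlgebra H) : Set (H →L[ℂ] H) := M

/-- Close algebras with a linear map near the inclusion are conjugate by a unitary near one. -/
def LinearlyCloseStable : Prop :=
  ∀ ε : ℝ, 0 < ε → ∃ δ : ℝ, 0 < δ ∧
    ∀ (H : Type u) [NormedAddCommGroup H] [InnerProductSpace ℂ H] [CompleteSpace H]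
      (M N : VonNeumannAlgebra H), kkDist M N < δ →
      ∀ T, IsNearMap (carrierSet M) (carrierSet N) δ T →
        ConjWithin (carrierSet M) (carrierSet N) ε

/-- Close subalgebras of an algebra, one of them linearly complemented in it, are conjugate. -/
def ComplementedStable : Prop :=
  ∀ ε : ℝ, 0 < ε → ∀ c : ℝ, ∃ δ : ℝ, 0 < δ ∧
    ∀ (H : Type u) [NormedAddCommGroup H] [InnerProductSpace ℂ H] [CompleteSpace H]
      (M N A : VonNeumannAlgebra H), carrierSet M ⊆ carrierSet A → carrierSet N ⊆ carrierSet A →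
      ∀ P, IsBoundedProj (carrierSet A) (carrierSet N) c P →
        kkDist M N < δ → ConjWithin (carrierSet M) (carrierSet N) ε

/-- Linear selection between close algebras. -/
def LinearSelection : Prop :=
  ∀ ε : ℝ, 0 < ε → ∃ δ : ℝ, 0 < δ ∧
    ∀ (H : Type u) [NormedAddCommGroup H] [InnerProductSpace ℂ H] [CompleteSpace H]
      (M N : VonNeumannAlgebra H), kkDist M N < δ →
      ∃ T, IsNearMap (carrierSet M) (carrierSet N) ε T

/-- The strong conjecture. -/
def StrongForm : Prop :=
  ∀ ε : ℝ, 0 < ε → ∃ δ : ℝ, 0 < δ ∧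
    ∀ (H : Type u) [NormedAddCommGroup H] [InnerProductSpace ℂ H] [CompleteSpace H]
      (M N : VonNeumannAlgebra H), kkDist M N < δ → ConjWithin (carrierSet M) (carrierSet N) ε

end Vale.Agent.P096.Linear
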