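import Vale.Agent.P082.Global.Halv
import Vale.Agent.P082.Global.Pieces
import Vale.Agent.P082.Global.Glue
import Vale.Agent.P082.Global.Free
import Vale.Agent.P082.Global.TypeI
import Vale.Agent.P082.Global.Local
import Vale.Agent.P082.Global.Normal
import Vale.Agent.P082.Global.Polar
import Vale.Agent.P082.Core.Assembly
import Vale.Agent.P082.Core.Walk
import Vale.Agent.P082.Core.Scalar
import Vale.Agent.P082.Core.Blocks
import Vale.Agent.P082.Core.Phase
import Vale.Agent.P082.Core.Expand
import Vale.Agent.P082.Core.Replace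
import Vale.Agent.P082.Core.Moments
import Vale.Agent.P082.Core.Poly

/-!
# Cohomology vanishes with constants depending on the degree only
-/

noncomputable section

namespace Vale.Agent.P096.Linear

open Vale.Agent.P082
open Vale.Agent.P104.Patch (Alg)
open Vale.Agent.P104.Red (IsCentral)

universe u

/-- One constant in each degree serves every von Neumann algebra. -/
theorem vanish_uniform (k : ℕ) :
    ∃ K : ℝ, 0 ≤ K ∧ ∀ (H : Type u) [NormedAddCommGroup H] [InnerProductSpace ℂ H]
      [CompleteSpace H] (M : VonNeumannAlgebra H), Vanish M k K := by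
  obtain ⟨K, hK, hsol⟩ :=
    F.solve_piece F.pullGoal (F.halvable F.pullGoal F.limitGoal CB.cbVanish.{u}) k
  refine ⟨max (max K ((k : ℝ) + 5)) 0, le_max_right _ _, fun H _ _ _ M f C hC hf hfc => ?_⟩
  set f' : Cochain (Alg M) (k + 1) := F.ofCoch hf
  have hcy : ∀ a, dHoch f' a = 0 := fun a => Subtype.ext (by
    rw [F.coe_dHoch_ofCoch hf a]
    exact hfc _ fun i => (a i).2)
  have hhalv : ∀ z : Alg M, IsCentral M (z : H →L[ℂ] H) →
      P104.Red.Halvable M (z : H →L[ℂ] H) → Solv (max K ((k : ℝ) + 5)) f' z := fun z hz hh => by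
    obtain ⟨g, hg, hga⟩ := hsol H M (F.toCoch f') ‖f'‖ (z : H →L[ℂ] H) (norm_nonneg _)
      (F.isCochain_toCoch f') (F.isCocycle_toCoch hcy) hz hh
    refine ⟨F.ofCoch hg, (F.norm_ofCoch_le hg (by positivity)).trans
      (mul_le_mul_of_nonneg_right (le_max_left _ _) (norm_nonneg _)), fun a => Subtype.ext ?_⟩
    push_cast
    rw [F.coe_dHoch_ofCoch hg, ← F.toCoch_coe]
    exact hga _ fun i => (a i).2
  obtain ⟨g, hgn, hg⟩ := glue_norm k (max K ((k : ℝ) + 5)) f' fun z₀ hz₀ h0 => by
    obtain ⟨z, hz, hzz, hne, hs⟩ := exists_solved_piece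
      (fun _ _ _ _ _ _ h hm => localOut (trOf h) (weakLim h) (normalOut (trOf h) (weakLim h)) hm)
      (fun _ _ _ _ _ _ h hna => meanOut (trOf h) walkOut (scalarOut _) (injOut _) (crossOut _)
        (diagOut _ walkOut) pairOut (expandOut _) (replaceOut _ polyOut (momentsOut _) (hasPolar h))
        powOut (hasFree h hna))
      (fun _ _ _ _ _ => typeIOut) (le_max_right K _) f' hcy hhalv hz₀
      fun h => h0 (Subtype.ext h)
    exact ⟨⟨z, hz.proj.1⟩, hz, Subtype.ext hzz, fun h => hne (congrArg Subtype.val h), hs⟩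
  refine ⟨F.toCoch g, (F.isCochain_toCoch g).mono (hgn.trans
    (mul_le_mul_of_nonneg_left (F.norm_ofCoch_le hf hC) (le_max_right _ _))), fun a ha => ?_⟩
  have h := congrArg (fun t : Alg M => (t : H →L[ℂ] H)) (hg fun i => (⟨a i, ha i⟩ : Alg M))
  simp only [← F.hd_toCoch, F.coe_ofCoch, f'] at h
  exact h.symm

end Vale.Agent.P096.Linear
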