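import Vale.Agent.P096.Linear.Spatial
import Vale.Agent.P096.Linear.Defs
import Vale.Agent.P096.Linear.Uniform
import Vale.Agent.P104.Sim.Main
import Vale.Agent.P104.Sim.Flat
import Vale.Agent.P104.Sim.Flatten
import Vale.Agent.P104.Sim.Split
import Vale.Agent.P104.Sim.Dist
import Vale.Agent.P104.Sim.Reduction

/-!
# Linearly close algebras are conjugate by a unitary near the identity
-/

noncomputable section

namespace Vale.Agent.P096.Linear

open Vale.Agent.P104 Vale.Agent.P104.Sim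
open Vale.Agent.P104.Patch (Alg)

universe u

lemma distance_formula : DistOut.{u} :=
  have hP := patchOut splitOut
  have hS := supportOut compareOut.{u}
  have hcore := coreOut (flattenOut hP) (mainStepOut hS) (signalOut hS) flatOut hP centerExpOut
  distOut (reductionOut (amplifyOut hcore))

lemma exists_near_scaled {H : Type u} [NormedAddCommGroup H] [InnerProductSpace ℂ H]
    [CompleteSpace H] {M N : VonNeumannAlgebra H} {δ : ℝ} (h : kkDist M N < δ)
    {y : H →L[ℂ] H} (hy : y ∈ M) : ∃ x ∈ N, ‖y - x‖ ≤ δ * ‖y‖ := by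
  rcases eq_or_ne ‖y‖ 0 with h0 | h0
  · exact ⟨0, zero_mem N, by simp [h0]⟩
  obtain ⟨x, hx, -, hd⟩ := kk_exists_near h (x := ((‖y‖ : ℂ))⁻¹ • y)
    (M.toStarSubalgebra.smul_mem hy _) (by rw [norm_smul]; simp [h0])
  refine ⟨(‖y‖ : ℂ) • x, N.toStarSubalgebra.smul_mem hx _, ?_⟩
  have e : y - (‖y‖ : ℂ) • x = (‖y‖ : ℂ) • (((‖y‖ : ℂ))⁻¹ • y - x) := by
    rw [smul_sub, smul_smul, mul_inv_cancel₀ (by exact_mod_cast h0), one_smul]
  rw [e, norm_smul, Complex.norm_real, norm_norm, mul_comm δ]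
  exact mul_le_mul_of_nonneg_left hd.le (norm_nonneg _)

/-- Close algebras with a linear map near the inclusion are conjugate by a unitary near one. -/
theorem linearlyClose :
    ∀ ε : ℝ, 0 < ε → ∃ δ : ℝ, 0 < δ ∧
      ∀ (H : Type u) [NormedAddCommGroup H] [InnerProductSpace ℂ H] [CompleteSpace H]
        (M N : VonNeumannAlgebra H), kkDist M N < δ →
        ∀ T : M.toStarSubalgebra →ₗ[ℂ] (H →L[ℂ] H),
          (∀ x, T x ∈ N ∧ ‖T x - (x : H →L[ℂ] H)‖ ≤ δ * ‖(x : H →L[ℂ] H)‖) →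
          ∃ v ∈ unitary (H →L[ℂ] H), ‖v - 1‖ < ε ∧
            (fun x => v * x * star v) '' (M : Set (H →L[ℂ] H)) = (N : Set (H →L[ℂ] H)) := by
  intro ε hε
  obtain ⟨k, hk⟩ := distance_formula.{u}
  obtain ⟨K₁, hK₁, hV₁⟩ := vanish_uniform.{u} 1
  obtain ⟨K₂, hK₂, hV₂⟩ := vanish_uniform.{u} 2
  set L := cL K₁ K₂
  have hL : 0 ≤ L := cL_nonneg hK₁ hK₂
  set A := 100 * (1 + L + cQ K₁ K₂)
  have hA : 0 < A := by have := cQ_nonneg hK₁ hK₂; positivity
  set B := (|k| + 1) * (1 + 16 * L)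
  have hB : 0 < B := by positivity
  refine ⟨min (1 / A) (min (1 / (100 * B)) (ε / (17 * B))), by positivity,
    fun H _ _ _ M N hMN T hT => ?_⟩
  set δ := min (1 / A) (min (1 / (100 * B)) (ε / (17 * B)))
  have hδ : 0 < δ := by positivity
  have hAδ : A * δ ≤ 1 := by
    have := mul_le_mul_of_nonneg_left (min_le_left _ _ : δ ≤ 1 / A) hA.le
    rwa [mul_one_div_cancel hA.ne'] at this
  let T' : Alg M →ₗ[ℂ] Alg N :=
    { toFun := fun x => ⟨T x, (hT x).1⟩
      map_add' := fun x y => Subtype.ext (map_add T x y)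
      map_smul' := fun c x => Subtype.ext (map_smul T c x) }
  obtain ⟨φ, hφ, hsur⟩ := exists_hom hK₁ hK₂ (hV₁ H M) (hV₂ H M) hδ.le hAδ
    (fun y => by
      obtain ⟨x, hx, hxy⟩ := exists_near_scaled (by rwa [kk_comm]) y.2
      exact ⟨⟨x, hx⟩, hxy⟩) T' fun a => (hT a).2
  have hθ : 0 ≤ (1 + 16 * L) * δ := by positivity
  have hkθ : |k| * ((1 + 16 * L) * δ) ≤ B * δ := by
    rw [← mul_assoc]
    exact mul_le_mul_of_nonneg_right
      (mul_le_mul_of_nonneg_right (by linarith) (by positivity)) hδ.le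
  have hB1 : B * δ ≤ 1 / 100 := by
    have := mul_le_mul_of_nonneg_left
      ((min_le_right _ _).trans (min_le_left _ _) : δ ≤ 1 / (100 * B)) hB.le
    rwa [show B * (1 / (100 * B)) = 1 / 100 by field_simp] at this
  have hB2 : 17 * (B * δ) ≤ ε := by
    have := mul_le_mul_of_nonneg_left
      ((min_le_right _ _).trans (min_le_right _ _) : δ ≤ ε / (17 * B)) (by positivity : (0:ℝ) ≤ 17 * B)
    rw [mul_div_cancel₀ ε (by positivity)] at this
    linarith
  obtain ⟨v, hv, hv1, hv2⟩ := spatial hθ (hkθ.trans hB1)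
    (fun A _ K _ _ _ σ S b hb hS hc => hk A K σ S b hb hS hc) φ hφ hsur
  exact ⟨v, hv, by nlinarith, hv2⟩

/-- The linear map given by a function which is linear on `M`. -/
def ofLinearOn {H : Type u} [NormedAddCommGroup H] [InnerProductSpace ℂ H] [CompleteSpace H]
    {M : VonNeumannAlgebra H} {T : (H →L[ℂ] H) → (H →L[ℂ] H)}
    (hT : IsLinearOn (carrierSet M) T) :
    M.toStarSubalgebra →ₗ[ℂ] (H →L[ℂ] H) where
  toFun x := T x
  map_add' x y := hT.1 _ x.2 _ y.2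
  map_smul' c x := hT.2 c _ x.2

/-- The strong conjecture is equivalent to linear selection. -/
theorem strongKK_iff_linearSelection : StrongForm.{u} ↔ LinearSelection.{u} := by
  constructor
  · intro h ε hε
    obtain ⟨δ, hδ, hc⟩ := h (min 1 (ε / 2)) (by positivity)
    refine ⟨δ, hδ, fun H _ _ _ M N hMN => ?_⟩
    obtain ⟨v, hv, hv1, himg⟩ := hc H M N hMN
    refine ⟨fun x => v * x * star v, ⟨fun x _ y _ => by simp [mul_add, add_mul],
      fun c x _ => by simp [mul_smul_comm, smul_mul_assoc]⟩, fun x hx => ⟨?_, ?_⟩⟩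
    · show v * x * star v ∈ carrierSet N
      rw [← himg]
      exact ⟨_, hx, rfl⟩
    show ‖v * x * star v - x‖ ≤ _
    have e : v * (x : H →L[ℂ] H) * star v - x =
        (v - 1) * ((x : H →L[ℂ] H) * star v) + (x : H →L[ℂ] H) * star (v - 1) := by
      rw [star_sub, star_one]; noncomm_ring
    rw [e]
    have hvn : ‖star v‖ ≤ 1 := by
      rw [norm_star]
      exact Vale.Agent.P104.Patch.norm_coe_uunit_le (⟨v, hv⟩ : unitary (H →L[ℂ] H))
    have h2 : ‖v - 1‖ ≤ ε / 2 := hv1.le.trans (min_le_right _ _)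
    have u1 : ‖(v - 1) * ((x : H →L[ℂ] H) * star v)‖ ≤ ε / 2 * ‖(x : H →L[ℂ] H)‖ :=
      (norm_mul_le _ _).trans (mul_le_mul h2
        ((norm_mul_le _ _).trans (mul_le_of_le_one_right (norm_nonneg _) hvn)) (norm_nonneg _)
        (by positivity))
    have u2 : ‖(x : H →L[ℂ] H) * star (v - 1)‖ ≤ ‖(x : H →L[ℂ] H)‖ * (ε / 2) :=
      (norm_mul_le _ _).trans (mul_le_mul_of_nonneg_left (by rw [norm_star]; exact h2)
        (norm_nonneg _))
    refine (norm_add_le _ _).trans ((add_le_add u1 u2).trans_eq ?_)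
    ring
  · intro h ε hε
    obtain ⟨δ, hδ, hmain⟩ := linearlyClose.{u} ε hε
    obtain ⟨δ', hδ', hsel⟩ := h δ hδ
    refine ⟨min δ δ', lt_min hδ hδ', fun H _ _ _ M N hMN => ?_⟩
    obtain ⟨T, hl, hT⟩ := hsel H M N (hMN.trans_le (min_le_right _ _))
    exact hmain H M N (hMN.trans_le (min_le_left _ _)) (ofLinearOn hl) fun x => hT _ x.2

/-- Close subalgebras of an algebra, one of them linearly complemented in it, are conjugate. -/
theorem complemented :
    ∀ ε : ℝ, 0 < ε → ∀ c : ℝ, ∃ δ : ℝ, 0 < δ ∧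
      ∀ (H : Type u) [NormedAddCommGroup H] [InnerProductSpace ℂ H] [CompleteSpace H]
        (M N A : VonNeumannAlgebra H), (M : Set (H →L[ℂ] H)) ⊆ A → (N : Set (H →L[ℂ] H)) ⊆ A →
        ∀ P : A.toStarSubalgebra →ₗ[ℂ] (H →L[ℂ] H),
          (∀ x : A.toStarSubalgebra, P x ∈ N ∧ ‖P x‖ ≤ c * ‖(x : H →L[ℂ] H)‖) →
          (∀ x : A.toStarSubalgebra, (x : H →L[ℂ] H) ∈ N → P x = (x : H →L[ℂ] H)) →
          kkDist M N < δ →
          ∃ v ∈ unitary (H →L[ℂ] H), ‖v - 1‖ < ε ∧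
            (fun x => v * x * star v) '' (M : Set (H →L[ℂ] H)) = (N : Set (H →L[ℂ] H)) := by
  intro ε hε c
  obtain ⟨δ, hδ, hmain⟩ := linearlyClose.{u} ε hε
  refine ⟨δ / (|c| + 1), by positivity, fun H _ _ _ M N A hM hN P hP hPN hMN => ?_⟩
  refine hmain H M N (hMN.trans_le (div_le_self hδ.le (by linarith [abs_nonneg c])))
    { toFun := fun x => P ⟨x, hM x.2⟩
      map_add' := fun x y => map_add P ⟨x, hM x.2⟩ ⟨y, hM y.2⟩
      map_smul' := fun r x => map_smul P r ⟨x, hM x.2⟩ } fun x => ⟨(hP _).1, ?_⟩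
  obtain ⟨y, hy, hxy⟩ := exists_near_scaled hMN x.2
  show ‖P ⟨x, hM x.2⟩ - (x : H →L[ℂ] H)‖ ≤ _
  have e : P ⟨x, hM x.2⟩ - (x : H →L[ℂ] H) =
      P (⟨x, hM x.2⟩ - ⟨y, hN hy⟩) - ((x : H →L[ℂ] H) - y) := by
    rw [map_sub, hPN ⟨y, hN hy⟩ hy]; abel
  rw [e]
  have h1 := (hP (⟨x, hM x.2⟩ - ⟨y, hN hy⟩)).2
  rw [AddSubgroupClass.coe_sub] at h1
  refine (norm_sub_le _ _).trans ((add_le_add (h1.trans
    (mul_le_mul_of_nonneg_right (le_abs_self c) (norm_nonneg _))) le_rfl).trans ?_)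
  calc |c| * ‖(x : H →L[ℂ] H) - y‖ + ‖(x : H →L[ℂ] H) - y‖
      = (|c| + 1) * ‖(x : H →L[ℂ] H) - y‖ := by ring
    _ ≤ (|c| + 1) * (δ / (|c| + 1) * ‖(x : H →L[ℂ] H)‖) :=
        mul_le_mul_of_nonneg_left hxy (by positivity)
    _ = δ * ‖(x : H →L[ℂ] H)‖ := by field_simp

/-- `linearlyClose` for functions linear on `M`. -/
theorem linearlyClose' : LinearlyCloseStable.{u} := by
  intro ε hε
  obtain ⟨δ, hδ, h⟩ := linearlyClose.{u} ε hε
  exact ⟨δ, hδ, fun H _ _ _ M N hMN T hT =>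
    h H M N hMN (ofLinearOn hT.1) fun x => hT.2 _ x.2⟩

/-- `complemented` for functions linear on the ambient algebra. -/
theorem complemented' : ComplementedStable.{u} := by
  intro ε hε c
  obtain ⟨δ, hδ, h⟩ := complemented.{u} ε hε c
  exact ⟨δ, hδ, fun H _ _ _ M N A hM hN P hP hMN =>
    h H M N A hM hN (ofLinearOn hP.1) (fun x => hP.2.1 _ x.2) (fun x hx => hP.2.2 _ hx) hMN⟩

end Vale.Agent.P096.Linear
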