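import Vale.Agent.P096.Linear.Newton

/-!
# The limit of the iteration
-/

noncomputable section

namespace Vale.Agent.P096.Linear

open Vale.Agent.P082
open Vale.Agent.P104.Patch (Alg)
open Filter Topology

universe u

variable {H : Type u} [NormedAddCommGroup H] [InnerProductSpace ℂ H] [CompleteSpace H]
variable {M N : VonNeumannAlgebra H}

/-- A linear map near the inclusion, made star preserving and measured for multiplicativity. -/
lemma exists_start {δ : ℝ} (hδ : 0 ≤ δ) (hδ1 : δ ≤ 1) (T : Alg M →ₗ[ℂ] Alg N)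
    (hT : ∀ a, ‖((T a : Alg N) : H →L[ℂ] H) - (a : H →L[ℂ] H)‖ ≤ δ * ‖a‖) :
    ∃ T₀ : Alg M →L[ℂ] Alg N, Good δ (4 * δ) T₀ := by
  let L : Alg M →ₗ[ℂ] Alg N :=
    { toFun := fun a => (2 : ℂ)⁻¹ • (T a + star (T (star a)))
      map_add' := fun a b => by simp only [star_add, map_add, smul_add]; abel
      map_smul' := fun c a => by
        simp only [RingHom.id_apply, star_smul, map_smul, star_star, smul_add, smul_comm c] }
  have hLn : ∀ a, ‖((L a : Alg N) : H →L[ℂ] H) - (a : H →L[ℂ] H)‖ ≤ δ * ‖a‖ := fun a => by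
    have e : ((L a : Alg N) : H →L[ℂ] H) - (a : H →L[ℂ] H) = (2 : ℂ)⁻¹ •
        ((((T a : Alg N) : H →L[ℂ] H) - (a : H →L[ℂ] H)) +
          star (((T (star a) : Alg N) : H →L[ℂ] H) - ((star a : Alg M) : H →L[ℂ] H))) := by
      simp only [L, LinearMap.coe_mk, AddHom.coe_mk, SetLike.val_smul, AddMemClass.coe_add,
        StarMemClass.coe_star, star_sub, star_star]
      module
    rw [e, norm_smul, norm_inv, Complex.norm_ofNat, inv_mul_le_iff₀ two_pos]
    refine (norm_add_le _ _).trans ?_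
    rw [norm_star]
    have h1 := hT (star a)
    rw [norm_star] at h1
    linarith [hT a]
  let T₀ : Alg M →L[ℂ] Alg N := L.mkContinuous (1 + δ) fun a => by
    have h := norm_le_norm_add_norm_sub' ((L a : Alg N) : H →L[ℂ] H) (a : H →L[ℂ] H)
    rw [norm_coe (L a), norm_coe a] at h
    linarith [hLn a]
  have hnear : ∀ a, ‖((T₀ a : Alg N) : H →L[ℂ] H) - (a : H →L[ℂ] H)‖ ≤ δ * ‖a‖ := hLn
  refine ⟨T₀, fun a => ?_, hnear, fun a b => ?_⟩
  · show (2 : ℂ)⁻¹ • (T (star a) + star (T (star (star a)))) =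
      star ((2 : ℂ)⁻¹ • (T a + star (T (star a))))
    rw [star_smul, star_add, star_star, star_star, add_comm]
    congr 1
    simp
  · rw [← norm_coe, AddSubgroupClass.coe_sub, MulMemClass.coe_mul]
    have e : ((T₀ a : Alg N) : H →L[ℂ] H) * (T₀ b : Alg N) - (T₀ (a * b) : Alg N) =
        (((T₀ a : Alg N) : H →L[ℂ] H) - a) * (T₀ b : Alg N) +
          (a : H →L[ℂ] H) * (((T₀ b : Alg N) : H →L[ℂ] H) - b) -
          (((T₀ (a * b) : Alg N) : H →L[ℂ] H) - (a * b : Alg M)) := by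
      rw [MulMemClass.coe_mul]
      noncomm_ring
    rw [e]
    have hb := (norm_map_sub_le T₀ hnear b).2
    have n0 := norm_nonneg a
    have n1 := norm_nonneg b
    have u1 : ‖(((T₀ a : Alg N) : H →L[ℂ] H) - a) * (T₀ b : Alg N)‖ ≤ δ * ‖a‖ * (2 * ‖b‖) := by
      refine (norm_mul_le _ _).trans (mul_le_mul (hnear a) ?_ (norm_nonneg _) (by positivity))
      rw [norm_coe]
      nlinarith
    have u2 : ‖(a : H →L[ℂ] H) * (((T₀ b : Alg N) : H →L[ℂ] H) - b)‖ ≤ ‖a‖ * (δ * ‖b‖) :=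
      (norm_mul_le _ _).trans (mul_le_mul le_rfl (hnear b) (norm_nonneg _) n0)
    have u3 : ‖((T₀ (a * b) : Alg N) : H →L[ℂ] H) - (a * b : Alg M)‖ ≤ δ * (‖a‖ * ‖b‖) :=
      (hnear _).trans (mul_le_mul_of_nonneg_left (norm_mul_le _ _) hδ)
    refine ((norm_sub_le _ _).trans (add_le_add ((norm_add_le _ _).trans (add_le_add u1 u2))
      u3)).trans_eq ?_
    ring

lemma cL_nonneg {K₁ K₂ : ℝ} (hK₁ : 0 ≤ K₁) (hK₂ : 0 ≤ K₂) : 0 ≤ cL K₁ K₂ :=
  mul_nonneg hK₁ (by positivity)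

lemma cQ_nonneg {K₁ K₂ : ℝ} (hK₁ : 0 ≤ K₁) (hK₂ : 0 ≤ K₂) : 0 ≤ cQ K₁ K₂ := by
  have := cL_nonneg hK₁ hK₂
  unfold cQ
  positivity

/-- An exact star isomorphism near a linear map that is near the inclusion. -/
theorem exists_hom {K₁ K₂ δ : ℝ} (hK₁ : 0 ≤ K₁) (hK₂ : 0 ≤ K₂) (hV₁ : Vanish M 1 K₁)
    (hV₂ : Vanish M 2 K₂) (hδ : 0 ≤ δ)
    (hδ0 : 100 * (1 + cL K₁ K₂ + cQ K₁ K₂) * δ ≤ 1)
    (hN : ∀ y : Alg N, ∃ x : Alg M, ‖(y : H →L[ℂ] H) - (x : H →L[ℂ] H)‖ ≤ δ * ‖y‖)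
    (T : Alg M →ₗ[ℂ] Alg N)
    (hT : ∀ a, ‖((T a : Alg N) : H →L[ℂ] H) - (a : H →L[ℂ] H)‖ ≤ δ * ‖a‖) :
    ∃ φ : Alg M →L[ℂ] Alg N, Good ((1 + 16 * cL K₁ K₂) * δ) 0 φ ∧ Function.Surjective φ := by
  set L := cL K₁ K₂ with hL
  have hL0 : 0 ≤ L := cL_nonneg hK₁ hK₂
  have hQ0 := cQ_nonneg hK₁ hK₂
  have hLδ : 100 * L * δ ≤ 1 := by nlinarith
  have hQδ : 100 * cQ K₁ K₂ * δ ≤ 1 := by nlinarith
  have hδ1 : 100 * δ ≤ 1 := by nlinarith
  let th : ℕ → ℝ := fun n => δ + 16 * L * δ * (1 - (1 / 2) ^ n)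
  let et : ℕ → ℝ := fun n => 4 * δ * (1 / 2) ^ n
  have hp : ∀ n : ℕ, (0 : ℝ) ≤ (1 / 2) ^ n ∧ ((1 / 2 : ℝ)) ^ n ≤ 1 := fun n =>
    ⟨by positivity, pow_le_one₀ (by norm_num) (by norm_num)⟩
  have hth : ∀ n, 0 ≤ th n ∧ th n ≤ (1 + 16 * L) * δ := fun n => by
    have h1 := hp n
    constructor
    · have : 0 ≤ 16 * L * δ * (1 - (1 / 2) ^ n) :=
        mul_nonneg (by positivity) (by linarith)
      simp only [th]; linarith
    · have : 0 ≤ 16 * L * δ * (1 / 2) ^ n := by positivity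
      simp only [th]; linarith
  have hbound : (1 + 16 * L) * δ + δ + (1 + 16 * L) * δ * δ ≤ 1 / 2 := by
    have : (1 + 16 * L) * δ ≤ 17 / 100 := by nlinarith
    nlinarith
  obtain ⟨T₀, hT₀⟩ := exists_start hδ (by linarith) T hT
  let P : ℕ → (Alg M →L[ℂ] Alg N) → Prop := fun n S => Good (th n) (et n) S
  have hstep : ∀ n S, P n S → ∃ S', P (n + 1) S' ∧ ‖S' - S‖ ≤ 8 * L * δ * (1 / 2) ^ n := by
    intro n S hS
    have h1 := hp n
    have he0 : 0 ≤ et n := by positivity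
    have he4 : et n ≤ 4 * δ := mul_le_of_le_one_right (by positivity) h1.2
    have hle : th n + δ + th n * δ ≤ 1 / 2 := by
      have := mul_le_mul_of_nonneg_right (hth n).2 hδ
      linarith [(hth n).2]
    obtain ⟨S', hS', hn⟩ := step hK₁ hK₂ hV₁ hV₂ hδ (hth n).1 hle hN he0 (by linarith)
      (by nlinarith) S hS
    refine ⟨S', ⟨hS'.star_eq, fun a => (hS'.near a).trans_eq ?_, fun a b => (hS'.defect a b).trans
      (mul_le_mul_of_nonneg_right ?_ (by positivity))⟩, hn.trans_eq (by simp only [et]; ring)⟩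
    · simp only [th, et, pow_succ, ← hL]; ring
    · calc cQ K₁ K₂ * et n ^ 2 = cQ K₁ K₂ * et n * et n := by ring
        _ ≤ 1 / 2 * et n := mul_le_mul_of_nonneg_right (by nlinarith) he0
        _ = et (n + 1) := by simp only [et, pow_succ]; ring
  choose next hnext hnext' using hstep
  let seq : ∀ n, {S // P n S} := fun n => Nat.rec (motive := fun n => {S // P n S})
    ⟨T₀, by simpa [P, th, et] using hT₀⟩ (fun n S => ⟨next n S.1 S.2, hnext n S.1 S.2⟩) n
  have hd : ∀ n, dist (seq n).1 (seq (n + 1)).1 ≤ 8 * L * δ * (1 / 2) ^ n := fun n => by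
    rw [dist_comm, dist_eq_norm]
    exact hnext' n _ (seq n).2
  obtain ⟨φ, hφ⟩ := cauchySeq_tendsto_of_complete
    (cauchySeq_of_le_geometric (1 / 2) (8 * L * δ) (by norm_num) hd)
  have happ : ∀ a, Tendsto (fun n => (seq n).1 a) atTop (𝓝 (φ a)) := fun a =>
    ((ContinuousLinearMap.apply ℂ (Alg N) a).continuous.tendsto φ).comp hφ
  have hgood : Good ((1 + 16 * L) * δ) 0 φ := by
    refine ⟨fun a => tendsto_nhds_unique (happ (star a)) ?_, fun a => ?_, fun a b => ?_⟩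
    · exact (happ a).star.congr fun n => ((seq n).2.star_eq a).symm
    · refine le_of_tendsto' ((((continuous_subtype_val.tendsto _).comp (happ a)).sub_const _).norm)
        fun n => ((seq n).2.near a).trans (mul_le_mul_of_nonneg_right (hth n).2 (norm_nonneg _))
    · have h1 := (((happ a).mul (happ b)).sub (happ (a * b))).norm
      have h2 : Tendsto (fun n => et n * (‖a‖ * ‖b‖)) atTop (𝓝 (0 * (‖a‖ * ‖b‖))) := by
        refine Tendsto.mul_const _ ?_
        have h3 := (tendsto_pow_atTop_nhds_zero_of_lt_one (by norm_num : (0 : ℝ) ≤ 1 / 2)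
          (by norm_num)).const_mul (4 * δ)
        rwa [mul_zero] at h3
      exact le_of_tendsto_of_tendsto' h1 h2 fun n => (seq n).2.defect a b
  exact ⟨φ, hgood, (equiv_of_near hδ (by positivity) hbound hN φ hgood.near).2⟩

end Vale.Agent.P096.Linear
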