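import Vale.Agent.P096.Defs
import Vale.Agent.P082.F.Basic
import Vale.Agent.P104.Patch.Dixmier

/-!
# An exact isomorphism near an almost multiplicative linear map

Johnson's iteration: the vanishing of the second and third cohomology with constants removes the
defect of multiplicativity quadratically.
-/

noncomputable section

namespace Vale.Agent.P096.Linear

open Vale.Agent.P082
open Vale.Agent.P104.Patch (Alg)
open Filter Topology

universe u

variable {H : Type u} [NormedAddCommGroup H] [InnerProductSpace ℂ H] [CompleteSpace H]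
variable {M N : VonNeumannAlgebra H}

/-- Star preserving, near the inclusion and almost multiplicative. -/
structure Good (θ η : ℝ) (T : Alg M →L[ℂ] Alg N) : Prop where
  star_eq : ∀ a, T (star a) = star (T a)
  near : ∀ a, ‖((T a : Alg N) : H →L[ℂ] H) - (a : H →L[ℂ] H)‖ ≤ θ * ‖a‖
  defect : ∀ a b, ‖T a * T b - T (a * b)‖ ≤ η * (‖a‖ * ‖b‖)

lemma hd_one (g : Coch H 1) (a : Fin 2 → (H →L[ℂ] H)) :
    hd g a = a 0 * g ![a 1] - g ![a 0 * a 1] + g ![a 0] * a 1 := by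
  have h1 : Fin.tail a = ![a 1] := by funext i; fin_cases i; rfl
  have h2 : Fin.init a = ![a 0] := by funext i; fin_cases i; rfl
  have h3 : Fin.contractNth (0 : Fin 2) (· * ·) a = ![a 0 * a 1] := by
    funext i; fin_cases i; simp [Fin.contractNth]
  rw [hd_apply, h1, h2]
  simp [h3, sub_eq_add_neg]

lemma hd_two (f : Coch H 2) (a : Fin 3 → (H →L[ℂ] H)) :
    hd f a = a 0 * f ![a 1, a 2] - f ![a 0 * a 1, a 2] + f ![a 0, a 1 * a 2]
      - f ![a 0, a 1] * a 2 := by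
  have h1 : Fin.tail a = ![a 1, a 2] := by funext i; fin_cases i <;> rfl
  have h2 : Fin.init a = ![a 0, a 1] := by funext i; fin_cases i <;> rfl
  have h3 : Fin.contractNth (0 : Fin 3) (· * ·) a = ![a 0 * a 1, a 2] := by
    funext i; fin_cases i <;> simp [Fin.contractNth]
  have h4 : Fin.contractNth (1 : Fin 3) (· * ·) a = ![a 0, a 1 * a 2] := by
    funext i; fin_cases i <;> simp [Fin.contractNth]
  rw [hd_apply, Fin.sum_univ_two, h1, h2]
  simp [h3, h4, sub_eq_add_neg, pow_succ]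
  abel

lemma norm_coe (a : Alg M) : ‖(a : H →L[ℂ] H)‖ = ‖a‖ := rfl

lemma norm_map_sub_le {θ : ℝ} (T : Alg M →L[ℂ] Alg N)
    (hT : ∀ a, ‖((T a : Alg N) : H →L[ℂ] H) - (a : H →L[ℂ] H)‖ ≤ θ * ‖a‖) (a : Alg M) :
    ‖a‖ ≤ ‖T a‖ + θ * ‖a‖ ∧ ‖T a‖ ≤ ‖a‖ + θ * ‖a‖ := by
  have h0 := hT a
  have h1 := norm_le_norm_add_norm_sub' (a : H →L[ℂ] H) ((T a : Alg N) : H →L[ℂ] H)
  have h2 := norm_le_norm_add_norm_sub' ((T a : Alg N) : H →L[ℂ] H) (a : H →L[ℂ] H)
  rw [norm_sub_rev (a : H →L[ℂ] H)] at h1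
  rw [norm_coe a, norm_coe (T a)] at h1 h2
  constructor <;> linarith

/-- A map near the inclusion of close algebras is bounded below and onto. -/
lemma equiv_of_near {θ δ : ℝ} (hδ : 0 ≤ δ) (hθ : 0 ≤ θ) (hθδ : θ + δ + θ * δ ≤ 1 / 2)
    (hN : ∀ y : Alg N, ∃ x : Alg M, ‖(y : H →L[ℂ] H) - (x : H →L[ℂ] H)‖ ≤ δ * ‖y‖)
    (T : Alg M →L[ℂ] Alg N)
    (hT : ∀ a, ‖((T a : Alg N) : H →L[ℂ] H) - (a : H →L[ℂ] H)‖ ≤ θ * ‖a‖) :
    (∀ a, ‖a‖ ≤ 2 * ‖T a‖) ∧ Function.Surjective T := by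
  have hθ2 : θ ≤ 1 / 2 := by nlinarith [mul_nonneg hθ hδ]
  have hlow : ∀ a, ‖a‖ ≤ 2 * ‖T a‖ := fun a => by
    have h := (norm_map_sub_le T hT a).1
    have h' := mul_le_mul_of_nonneg_right hθ2 (norm_nonneg a)
    linarith
  refine ⟨hlow, fun y => ?_⟩
  by_contra hy
  have hcl : IsClosed (LinearMap.range (T : Alg M →ₗ[ℂ] Alg N) : Set (Alg N)) := by
    have h : AntilipschitzWith 2 T := T.antilipschitz_of_bound fun a => by simpa using hlow a
    rw [LinearMap.coe_range]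
    exact h.isClosed_range T.uniformContinuous
  obtain ⟨y₀, hy₁, hy₀⟩ := riesz_lemma (r := 3 / 4) hcl ⟨y, by simpa using hy⟩ (by norm_num)
  obtain ⟨x, hx⟩ := hN y₀
  have h := hy₀ (T x) ⟨x, rfl⟩
  have h1 : ‖y₀ - T x‖ ≤ δ * ‖y₀‖ + θ * ‖x‖ := by
    rw [← norm_coe, AddSubgroupClass.coe_sub]
    refine (norm_sub_le_norm_sub_add_norm_sub _ (x : H →L[ℂ] H) _).trans (add_le_add hx ?_)
    rw [norm_sub_rev]
    exact hT x
  have h2 : ‖x‖ ≤ (1 + δ) * ‖y₀‖ := by
    have h3 := norm_le_norm_add_norm_sub' (x : H →L[ℂ] H) (y₀ : H →L[ℂ] H)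
    rw [norm_sub_rev (x : H →L[ℂ] H), norm_coe x, norm_coe y₀] at h3
    linarith
  have h4 : ‖y₀‖ = 0 := by
    have h5 := mul_le_mul_of_nonneg_left h2 hθ
    have h6 := mul_le_mul_of_nonneg_right hθδ (norm_nonneg y₀)
    nlinarith [norm_nonneg y₀]
  rw [norm_eq_zero.1 h4] at hy₁
  exact hy₁ (Submodule.zero_mem _)

/-- Pairs from `M`. -/
lemma args_two {x y : H →L[ℂ] H} (hx : x ∈ M) (hy : y ∈ M) : Args M ![x, y] := fun i => by
  fin_cases i <;> assumption

/-- Singletons from `M`. -/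
lemma args_one {x : H →L[ℂ] H} (hx : x ∈ M) : Args M ![x] := fun i => by
  fin_cases i; exact hx

/-- A self-adjoint bilinear form which makes the product plus itself associative. -/
structure Assoc (η : ℝ) (F : Alg M → Alg M → Alg M) : Prop where
  bound : ∀ a b, ‖F a b‖ ≤ 2 * η * (‖a‖ * ‖b‖)
  add₁ : ∀ a a' b, F (a + a') b = F a b + F a' b
  add₂ : ∀ a b b', F a (b + b') = F a b + F a b'
  smul₁ : ∀ (c : ℂ) a b, F (c • a) b = c • F a b
  smul₂ : ∀ (c : ℂ) a b, F a (c • b) = c • F a b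
  star_eq : ∀ a b, F (star b) (star a) = star (F a b)
  assoc : ∀ a b c, a * F b c - F (a * b) c + F a (b * c) - F a b * c =
    F (F a b) c - F a (F b c)

/-- The defect of multiplicativity, pulled back. -/
lemma exists_assoc {θ η : ℝ} {T : Alg M →L[ℂ] Alg N} (hT : Good θ η T)
    (hlow : ∀ a, ‖a‖ ≤ 2 * ‖T a‖) (hsur : Function.Surjective T) :
    ∃ F : Alg M → Alg M → Alg M, Assoc η F ∧ ∀ a b, T (F a b) = T a * T b - T (a * b) := by
  have hinj : Function.Injective T := fun a b h => by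
    have h' := hlow (a - b)
    rw [map_sub, h, sub_self, norm_zero, mul_zero] at h'
    exact sub_eq_zero.1 (norm_le_zero_iff.1 h')
  choose F hF using fun a b => hsur (T a * T b - T (a * b))
  refine ⟨F, ⟨fun a b => ?_, fun a a' b => hinj ?_, fun a b b' => hinj ?_, fun c a b => hinj ?_,
    fun c a b => hinj ?_, fun a b => hinj ?_, fun a b c => hinj ?_⟩, hF⟩
  · refine (hlow _).trans ?_
    rw [hF, mul_assoc]
    exact mul_le_mul_of_nonneg_left (hT.defect a b) zero_le_two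
  · simp only [map_add, hF, add_mul]; abel
  · simp only [map_add, hF, mul_add]; abel
  · simp only [map_smul, hF, smul_mul_assoc, smul_sub]
  · simp only [map_smul, hF, mul_smul_comm, smul_sub]
  · rw [hT.star_eq, hF, hF, hT.star_eq, hT.star_eq, star_sub, star_mul, ← hT.star_eq (a * b),
      star_mul]
  · have e : ∀ u v, T (u * v) = T u * T v - T (F u v) := fun u v => by
      rw [hF u v]; abel
    have e₁ := e a (F b c)
    have e₂ := e (F a b) c
    rw [map_sub, map_add, map_sub, map_sub, e₁, e₂, hF b c, hF a b, hF (a * b) c, hF a (b * c),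
      hF (F a b) c, hF a (F b c), hF a b, hF b c, ← mul_assoc a b c]
    noncomm_ring

open Classical in
/-- The correction of the first order, from the vanishing of the second and third cohomology. -/
lemma exists_gamma {K₁ K₂ η : ℝ} (hK₁ : 0 ≤ K₁) (hK₂ : 0 ≤ K₂) (hV₁ : Vanish M 1 K₁)
    (hV₂ : Vanish M 2 K₂) (hη : 0 ≤ η) (hη1 : η ≤ 1) {F : Alg M → Alg M → Alg M}
    (hF : Assoc η F) :
    ∃ γ : Alg M →L[ℂ] Alg M, (∀ a, γ (star a) = star (γ a)) ∧
      (∀ a, ‖γ a‖ ≤ K₁ * (2 + 8 * K₂) * η * ‖a‖) ∧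
      ∀ a b, ‖F a b - (a * γ b - γ (a * b) + γ a * b)‖ ≤ 8 * K₂ * η ^ 2 * (‖a‖ * ‖b‖) := by
  let f : Coch H 2 := fun v =>
    if h : Args M v then ((F ⟨v 0, h 0⟩ ⟨v 1, h 1⟩ : Alg M) : H →L[ℂ] H) else 0
  have hf : ∀ v (h : Args M v), f v = ((F ⟨v 0, h 0⟩ ⟨v 1, h 1⟩ : Alg M) : H →L[ℂ] H) :=
    fun v h => dif_pos h
  have hf2 : ∀ a b : Alg M, f ![(a : H →L[ℂ] H), (b : H →L[ℂ] H)] = (F a b : Alg M) := fun a b =>
    hf _ (args_two a.2 b.2)
  have hfc : IsCochain M f (2 * η) := by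
    refine ⟨fun v hv => ?_, fun v hv i x hx y hy => ?_, fun v hv i c x hx => ?_, fun v hv => ?_⟩
    · rw [hf v hv]; exact (F _ _).2
    · rw [hf _ (hv.update i (add_mem hx hy)), hf _ (hv.update i hx), hf _ (hv.update i hy)]
      fin_cases i
      · exact congrArg Subtype.val (hF.add₁ ⟨x, hx⟩ ⟨y, hy⟩ ⟨v 1, hv 1⟩)
      · exact congrArg Subtype.val (hF.add₂ ⟨v 0, hv 0⟩ ⟨x, hx⟩ ⟨y, hy⟩)
    · rw [hf _ (hv.update i (mem_smul c hx)), hf _ (hv.update i hx)]
      fin_cases i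
      · exact congrArg Subtype.val (hF.smul₁ c ⟨x, hx⟩ ⟨v 1, hv 1⟩)
      · exact congrArg Subtype.val (hF.smul₂ c ⟨v 0, hv 0⟩ ⟨x, hx⟩)
    · rw [hf v hv, Fin.prod_univ_two]
      exact hF.bound _ _
  have hdf : IsCochain M (hd f) (8 * η ^ 2) := by
    refine { hfc.hd (by positivity) with bound := fun v hv => ?_ }
    let a : Alg M := ⟨v 0, hv 0⟩
    let b : Alg M := ⟨v 1, hv 1⟩
    let c : Alg M := ⟨v 2, hv 2⟩
    have e : hd f v = ((F (F a b) c - F a (F b c) : Alg M) : H →L[ℂ] H) := by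
      rw [← hF.assoc, hd_two]
      simp only [AddMemClass.coe_add, AddSubgroupClass.coe_sub, MulMemClass.coe_mul]
      rw [← hf2 b c, ← hf2 (a * b) c, ← hf2 a (b * c), ← hf2 a b]
      simp only [MulMemClass.coe_mul, a, b, c]
    rw [e, norm_coe, Fin.prod_univ_three]
    have u1 : ‖F (F a b) c‖ ≤ 2 * η * (2 * η * (‖a‖ * ‖b‖) * ‖c‖) := (hF.bound _ _).trans
      (mul_le_mul_of_nonneg_left (mul_le_mul_of_nonneg_right (hF.bound a b) (norm_nonneg _))
        (by positivity))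
    have u2 : ‖F a (F b c)‖ ≤ 2 * η * (‖a‖ * (2 * η * (‖b‖ * ‖c‖))) := (hF.bound _ _).trans
      (mul_le_mul_of_nonneg_left (mul_le_mul_of_nonneg_left (hF.bound b c) (norm_nonneg _))
        (by positivity))
    refine (norm_sub_le _ _).trans ((add_le_add u1 u2).trans_eq ?_)
    rw [show ‖v 0‖ = ‖a‖ from rfl, show ‖v 1‖ = ‖b‖ from rfl, show ‖v 2‖ = ‖c‖ from rfl]
    ring
  obtain ⟨h, hh, hhd⟩ := hV₂ (hd f) _ (by positivity) hdf (fun v _ => congrFun (hd_hd f) v)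
  have hsub : IsCocycle M (f - h) := fun v hv => by
    rw [hd_sub, Pi.sub_apply, hhd v hv, sub_self, Pi.zero_apply]
  obtain ⟨g, hg, hgd⟩ := hV₁ (f - h) _ (by positivity) (hfc.sub hh) hsub
  set G : ℝ := K₁ * (2 + 8 * K₂) * η with hG
  have hG0 : 0 ≤ G := by positivity
  have hgb : K₁ * (2 * η + K₂ * (8 * η ^ 2)) ≤ G := by
    rw [hG, mul_assoc]
    refine mul_le_mul_of_nonneg_left ?_ hK₁
    nlinarith [mul_nonneg hK₂ (mul_nonneg hη (sub_nonneg.2 hη1))]
  let γ₀ : Alg M → Alg M := fun a => ⟨g ![(a : H →L[ℂ] H)], hg.mem _ (args_one a.2)⟩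
  have hup : ∀ x : H →L[ℂ] H, Function.update ![(0 : H →L[ℂ] H)] 0 x = ![x] := fun x => by
    funext i; fin_cases i; simp
  have hγadd : ∀ a b, γ₀ (a + b) = γ₀ a + γ₀ b := fun a b => Subtype.ext (by
    have h1 := hg.map_add _ (args_one (zero_mem M)) 0 _ a.2 _ b.2
    rw [hup, hup, hup] at h1
    exact h1)
  have hγsmul : ∀ (c : ℂ) a, γ₀ (c • a) = c • γ₀ a := fun c a => Subtype.ext (by
    have h1 := hg.map_smul _ (args_one (zero_mem M)) 0 c _ a.2
    rw [hup, hup] at h1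
    exact h1)
  have hγn : ∀ a, ‖γ₀ a‖ ≤ G * ‖a‖ := fun a => by
    have h1 := hg.bound _ (args_one a.2)
    rw [Fin.prod_univ_one, Matrix.cons_val_zero, norm_coe a] at h1
    rw [← norm_coe (γ₀ a)]
    exact h1.trans (mul_le_mul_of_nonneg_right hgb (norm_nonneg _))
  have hdg : ∀ a b, ‖F a b - (a * γ₀ b - γ₀ (a * b) + γ₀ a * b)‖ ≤
      K₂ * (8 * η ^ 2) * (‖a‖ * ‖b‖) := fun a b => by
    have h1 := hgd _ (args_two a.2 b.2)
    rw [hd_one, Pi.sub_apply, hf2, Matrix.cons_val_zero, Matrix.cons_val_one,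
      Matrix.cons_val_zero] at h1
    have h2 := hh.bound _ (args_two a.2 b.2)
    rw [Fin.prod_univ_two, Matrix.cons_val_zero, Matrix.cons_val_one, Matrix.cons_val_zero,
      norm_coe a, norm_coe b] at h2
    refine le_trans (le_of_eq ?_) h2
    rw [← norm_coe (F a b - _)]
    congr 1
    simp only [AddMemClass.coe_add, AddSubgroupClass.coe_sub, MulMemClass.coe_mul, γ₀]
    rw [h1]
    abel
  let γ : Alg M →L[ℂ] Alg M := LinearMap.mkContinuous
    { toFun := fun a => (2 : ℂ)⁻¹ • (γ₀ a + star (γ₀ (star a)))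
      map_add' := fun a b => by simp only [star_add, hγadd, smul_add]; abel
      map_smul' := fun c a => by
        simp only [RingHom.id_apply, star_smul, hγsmul, star_star, smul_add, smul_comm c] } G
    fun a => by
      show ‖(2 : ℂ)⁻¹ • (γ₀ a + star (γ₀ (star a)))‖ ≤ G * ‖a‖
      rw [norm_smul, norm_inv, Complex.norm_ofNat, inv_mul_le_iff₀ two_pos]
      refine (norm_add_le _ _).trans ?_
      rw [norm_star]
      have h1 := hγn (star a)
      rw [norm_star] at h1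
      linarith [hγn a]
  have hγ : ∀ a, γ a = (2 : ℂ)⁻¹ • (γ₀ a + star (γ₀ (star a))) := fun a => rfl
  refine ⟨γ, fun a => ?_, fun a => γ.le_of_opNorm_le (LinearMap.mkContinuous_norm_le _ hG0 _) a,
    fun a b => ?_⟩
  · rw [hγ, hγ, star_smul, star_add, star_star, star_star, add_comm]
    congr 1
    simp
  · have e : F a b - (a * γ b - γ (a * b) + γ a * b) =
        (2 : ℂ)⁻¹ • ((F a b - (a * γ₀ b - γ₀ (a * b) + γ₀ a * b)) +
          star (F (star b) (star a) - (star b * γ₀ (star a) - γ₀ (star b * star a)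
            + γ₀ (star b) * star a))) := by
      simp only [hγ, hF.star_eq, star_sub, star_add, star_mul, star_star, mul_smul_comm,
        smul_mul_assoc, mul_add, add_mul]
      module
    rw [e, norm_smul, norm_inv, Complex.norm_ofNat, inv_mul_le_iff₀ two_pos]
    refine (norm_add_le _ _).trans ?_
    rw [norm_star]
    have h1 := hdg (star b) (star a)
    rw [norm_star, norm_star] at h1
    have h3 : ‖b‖ * ‖a‖ = ‖a‖ * ‖b‖ := mul_comm _ _
    rw [h3] at h1
    linarith [hdg a b]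

/-- The constant of the linear correction. -/
def cL (K₁ K₂ : ℝ) : ℝ := K₁ * (2 + 8 * K₂)

/-- The constant of the quadratic gain. -/
def cQ (K₁ K₂ : ℝ) : ℝ := 2 * (8 * K₂ + cL K₁ K₂ ^ 2 + 6 * cL K₁ K₂)

/-- One step of the iteration. -/
theorem step {K₁ K₂ θ η δ : ℝ} (hK₁ : 0 ≤ K₁) (hK₂ : 0 ≤ K₂)
    (hV₁ : Vanish M 1 K₁) (hV₂ : Vanish M 2 K₂) (hδ : 0 ≤ δ) (hθ : 0 ≤ θ)
    (hθδ : θ + δ + θ * δ ≤ 1 / 2)
    (hN : ∀ y : Alg N, ∃ x : Alg M, ‖(y : H →L[ℂ] H) - (x : H →L[ℂ] H)‖ ≤ δ * ‖y‖)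
    (hη : 0 ≤ η) (hη1 : η ≤ 1) (hsmall : cL K₁ K₂ * η ≤ 1)
    (T : Alg M →L[ℂ] Alg N) (hT : Good θ η T) :
    ∃ T' : Alg M →L[ℂ] Alg N, Good (θ + 2 * cL K₁ K₂ * η) (cQ K₁ K₂ * η ^ 2) T' ∧
      ‖T' - T‖ ≤ 2 * cL K₁ K₂ * η := by
  obtain ⟨hlow, hsur⟩ := equiv_of_near hδ hθ hθδ hN T hT.near
  obtain ⟨F, hF, hTF⟩ := exists_assoc hT hlow hsur
  obtain ⟨γ, hγs, hγb, hres⟩ := exists_gamma hK₁ hK₂ hV₁ hV₂ hη hη1 hF
  have hθ2 : θ ≤ 1 := by nlinarith [mul_nonneg hθ hδ]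
  have hTn : ∀ a, ‖T a‖ ≤ 2 * ‖a‖ := fun a => by
    have h1 := (norm_map_sub_le T hT.near a).2
    have h2 := mul_le_mul_of_nonneg_right hθ2 (norm_nonneg a)
    linarith
  set G : ℝ := cL K₁ K₂ * η with hG
  have hG0 : 0 ≤ G := mul_nonneg (mul_nonneg hK₁ (by positivity)) hη
  have hcL : ∀ a, ‖γ a‖ ≤ G * ‖a‖ := hγb
  have hTγ : ∀ a, ‖T (γ a)‖ ≤ 2 * G * ‖a‖ := fun a => by
    rw [mul_assoc]
    exact (hTn _).trans (mul_le_mul_of_nonneg_left (hcL a) zero_le_two)
  refine ⟨T - T.comp γ, ⟨fun a => ?_, fun a => ?_, fun a b => ?_⟩, ?_⟩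
  · simp only [sub_apply, ContinuousLinearMap.comp_apply, hγs, hT.star_eq, star_sub]
  · rw [sub_apply, ContinuousLinearMap.comp_apply, AddSubgroupClass.coe_sub, sub_right_comm]
    refine (norm_sub_le _ _).trans ((add_le_add (hT.near a) ?_).trans_eq (add_mul _ _ _).symm)
    rw [norm_coe, mul_assoc 2, ← hG]
    exact hTγ a
  · have e : (T - T.comp γ) a * (T - T.comp γ) b - (T - T.comp γ) (a * b) =
        T ((F a b - (a * γ b - γ (a * b) + γ a * b)) + γ a * γ b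
          + (-F (γ a) b - F (a - γ a) (γ b))) := by
      have e1 : ∀ u v, T u * T v = T (F u v) + T (u * v) := fun u v => by rw [hTF]; abel
      have e2 : ∀ u, (T - T.comp γ) u = T (u - γ u) := fun u => (map_sub T u (γ u)).symm
      have e3 : F (a - γ a) (b - γ b) = F a b - F (γ a) b - F (a - γ a) (γ b) := by
        have h1 := hF.add₂ (a - γ a) (b - γ b) (γ b)
        have h2 := hF.add₁ (a - γ a) (γ a) b
        rw [sub_add_cancel] at h1 h2
        rw [h2, h1]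
        abel
      rw [e2, e2, e2, e1, e3, ← map_add, ← map_sub]
      congr 1
      simp only [mul_sub, sub_mul]
      abel
    rw [e]
    refine (hTn _).trans ?_
    have hga := hcL a
    have hgb := hcL b
    have n0 := norm_nonneg a
    have n1 := norm_nonneg b
    have t1 : ‖γ a * γ b‖ ≤ G * ‖a‖ * (G * ‖b‖) :=
      (norm_mul_le _ _).trans (mul_le_mul hga hgb (norm_nonneg _) (by positivity))
    have t2 : ‖-F (γ a) b - F (a - γ a) (γ b)‖ ≤
        2 * η * (G * ‖a‖ * ‖b‖) + 2 * η * (2 * ‖a‖ * (G * ‖b‖)) := by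
      refine (norm_sub_le _ _).trans (add_le_add ?_ ?_)
      · rw [norm_neg]
        exact (hF.bound _ _).trans (mul_le_mul_of_nonneg_left
          (mul_le_mul_of_nonneg_right hga n1) (by positivity))
      · refine (hF.bound _ _).trans (mul_le_mul_of_nonneg_left
          (mul_le_mul ?_ hgb (norm_nonneg _) (by positivity)) (by positivity))
        refine (norm_sub_le _ _).trans ?_
        have := mul_le_mul_of_nonneg_right hsmall n0
        linarith
    refine (mul_le_mul_of_nonneg_left (norm_add₃_le.trans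
      (add_le_add (add_le_add (hres a b) t1) t2)) zero_le_two).trans_eq ?_
    rw [cQ, hG]
    ring
  · rw [sub_sub_cancel_left, norm_neg]
    refine ContinuousLinearMap.opNorm_le_bound _ (by rw [mul_assoc, ← hG]; exact mul_nonneg zero_le_two hG0) fun a => ?_
    rw [mul_assoc 2, ← hG]
    exact hTγ a

end Vale.Agent.P096.Linear
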