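import Vale.Agent.P096.Linear.Iterate
import Vale.Agent.P096.Polar
import Vale.Agent.P096.MatClose

/-!
# A star isomorphism near the identity is implemented by a unitary near the identity
-/

noncomputable section

namespace Vale.Agent.P096.Linear

open Vale.Agent.P104 Vale.Agent.P104.Sim Vale.Agent.P104.Sim.Amplify
open Vale.Agent.P104.Patch (Alg)

universe u

variable {H : Type u} [NormedAddCommGroup H] [InnerProductSpace ℂ H] [CompleteSpace H]
variable {M N : VonNeumannAlgebra H}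

/-- A diagonal operator. -/
def diag₂ (v : Fin 2 → (H →L[ℂ] H)) : Amp H 2 →L[ℂ] Amp H 2 :=
  ∑ i, inj i ∘L v i ∘L pr i

lemma diag₂_apply (v : Fin 2 → (H →L[ℂ] H)) (w : Amp H 2) (i : Fin 2) :
    diag₂ v w i = v i (w i) := by
  fin_cases i <;> simp [diag₂, inj_apply, pr_apply, Fin.sum_univ_two]

lemma diag₂_mul (v v' : Fin 2 → (H →L[ℂ] H)) : diag₂ (v * v') = diag₂ v * diag₂ v' := by
  refine ContinuousLinearMap.ext fun w => ?_
  ext i
  simp [diag₂_apply]

lemma diag₂_star (v : Fin 2 → (H →L[ℂ] H)) : diag₂ (star v) = star (diag₂ v) := by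
  simp [diag₂, ContinuousLinearMap.star_eq_adjoint, ContinuousLinearMap.adjoint_comp, adjoint_pr,
    adjoint_inj, map_sum, ContinuousLinearMap.comp_assoc]

/-- Exchange of the two copies. -/
def swap₂ : Amp H 2 →L[ℂ] Amp H 2 := inj 0 ∘L pr 1 + inj 1 ∘L pr 0

lemma swap₂_apply (w : Amp H 2) (i : Fin 2) : (swap₂ w : Amp H 2) i = w (1 - i) := by
  fin_cases i <;> simp [swap₂, inj_apply, pr_apply]

lemma swap₂_selfAdjoint : IsSelfAdjoint (swap₂ : Amp H 2 →L[ℂ] Amp H 2) := by
  rw [isSelfAdjoint_iff, ContinuousLinearMap.star_eq_adjoint, swap₂, map_add,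
    ContinuousLinearMap.adjoint_comp, ContinuousLinearMap.adjoint_comp, adjoint_pr, adjoint_inj,
    adjoint_pr, adjoint_inj, add_comm]

lemma norm_ent_le (Y : Amp H 2 →L[ℂ] Amp H 2) (i j : Fin 2) : ‖ent Y i j‖ ≤ ‖Y‖ := by
  refine ContinuousLinearMap.opNorm_le_bound _ (norm_nonneg _) fun x => ?_
  rw [ent_apply]
  refine (PiLp.norm_apply_le _ _).trans ((Y.le_opNorm _).trans
    (mul_le_mul_of_nonneg_left ?_ (norm_nonneg _)))
  refine le_of_pow_le_pow_left₀ two_ne_zero (norm_nonneg _) (le_of_eq ?_)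
  rw [PiLp.norm_sq_eq_of_L2, Fin.sum_univ_two]
  fin_cases j <;> simp [inj_apply]

/-- The isomorphism is implemented by a unitary near the identity. -/
theorem spatial {k θ : ℝ} (hθ : 0 ≤ θ) (hk : |k| * θ ≤ 1 / 100)
    (hD : ∀ (A : Type u) [CStarAlgebra A] (K : Type u) [NormedAddCommGroup K]
      [InnerProductSpace ℂ K] [CompleteSpace K] (σ : A →⋆ₐ[ℂ] (K →L[ℂ] K)) (S : K →L[ℂ] K)
      (b : ℝ), 0 ≤ b → IsSelfAdjoint S → (∀ a, ‖S * σ a - σ a * S‖ ≤ b * ‖a‖) →
      ∃ S' : K →L[ℂ] K, (∀ a, σ a * S' = S' * σ a) ∧ IsSelfAdjoint S' ∧ ‖S - S'‖ ≤ k * b)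
    (φ : Alg M →L[ℂ] Alg N) (hφ : Good θ 0 φ) (hsur : Function.Surjective φ) :
    ∃ v ∈ unitary (H →L[ℂ] H), ‖v - 1‖ ≤ 16 * (|k| * θ) ∧
      (fun x => v * x * star v) '' (M : Set (H →L[ℂ] H)) = (N : Set (H →L[ℂ] H)) := by
  have hmul : ∀ a b, φ (a * b) = φ a * φ b := fun a b => by
    have h := hφ.defect a b
    rw [zero_mul, norm_le_zero_iff, sub_eq_zero] at h
    exact h.symm
  have hone : φ 1 = 1 := by
    obtain ⟨x, hx⟩ := hsur 1
    calc φ 1 = φ 1 * φ x := by rw [hx, mul_one]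
      _ = 1 := by rw [← hmul, one_mul, hx]
  let σ : Alg M →⋆ₐ[ℂ] (Amp H 2 →L[ℂ] Amp H 2) :=
    { toFun := fun a => diag₂ ![(a : H →L[ℂ] H), ((φ a : Alg N) : H →L[ℂ] H)]
      map_one' := by
        refine ContinuousLinearMap.ext fun w => ?_
        ext i
        fin_cases i <;> simp [diag₂_apply, hone]
      map_mul' := fun a b => by
        rw [← diag₂_mul]
        congr 1
        funext i
        fin_cases i <;> simp [hmul]
      map_zero' := by
        refine ContinuousLinearMap.ext fun w => ?_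
        ext i
        fin_cases i <;> simp [diag₂_apply]
      map_add' := fun a b => by
        refine ContinuousLinearMap.ext fun w => ?_
        ext i
        fin_cases i <;> simp [diag₂_apply]
      commutes' := fun c => by
        refine ContinuousLinearMap.ext fun w => ?_
        ext i
        fin_cases i <;> simp [diag₂_apply, Algebra.algebraMap_eq_smul_one, map_smul, hone]
      map_star' := fun a => by
        rw [← diag₂_star]
        congr 1
        funext i
        fin_cases i <;> simp [hφ.star_eq] }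
  have hσ : ∀ a, σ a = diag₂ ![(a : H →L[ℂ] H), ((φ a : Alg N) : H →L[ℂ] H)] := fun a => rfl
  obtain ⟨S, hS, -, hSn⟩ := hD (Alg M) (Amp H 2) σ swap₂ θ hθ swap₂_selfAdjoint fun a => by
    refine ContinuousLinearMap.opNorm_le_bound _ (by positivity) fun w => ?_
    refine le_of_pow_le_pow_left₀ two_ne_zero (by positivity) ?_
    rw [PiLp.norm_sq_eq_of_L2, mul_pow, PiLp.norm_sq_eq_of_L2, Finset.mul_sum, Fin.sum_univ_two,
      Fin.sum_univ_two]
    have h := hφ.near a
    have h0 : ∀ x : H, ‖(((φ a : Alg N) : H →L[ℂ] H) - (a : H →L[ℂ] H)) x‖ ^ 2 ≤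
        (θ * ‖a‖) ^ 2 * ‖x‖ ^ 2 := fun x => by
      rw [← mul_pow]
      exact pow_le_pow_left₀ (norm_nonneg _) ((ContinuousLinearMap.le_opNorm _ _).trans
        (mul_le_mul_of_nonneg_right h (norm_nonneg _))) 2
    have e0 : (((swap₂ * σ a - σ a * swap₂ : Amp H 2 →L[ℂ] Amp H 2)) w) 0 =
        (((φ a : Alg N) : H →L[ℂ] H) - (a : H →L[ℂ] H)) (w 1) := by
      simp [hσ, diag₂_apply, swap₂_apply]
    have e1 : (((swap₂ * σ a - σ a * swap₂ : Amp H 2 →L[ℂ] Amp H 2)) w) 1 =
        -((((φ a : Alg N) : H →L[ℂ] H) - (a : H →L[ℂ] H)) (w 0)) := by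
      simp [hσ, diag₂_apply, swap₂_apply]
    rw [e0, e1, norm_neg]
    linarith [h0 (w 0), h0 (w 1)]
  set E := ent S 0 1 with hE
  have hcomm : ∀ a : Alg M, (a : H →L[ℂ] H) * E = E * ((φ a : Alg N) : H →L[ℂ] H) := fun a => by
    refine ContinuousLinearMap.ext fun x => ?_
    have h := congrArg (fun T : Amp H 2 →L[ℂ] Amp H 2 => T (inj 1 x) 0) (hS a)
    simp only [mul_apply_eq_comp, hσ, diag₂_apply, Matrix.cons_val_zero] at h
    have e : diag₂ ![(a : H →L[ℂ] H), ((φ a : Alg N) : H →L[ℂ] H)] (inj 1 x) =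
        inj 1 (((φ a : Alg N) : H →L[ℂ] H) x) := by
      ext i
      rw [diag₂_apply, inj_apply, inj_apply]
      fin_cases i <;> simp
    rw [e] at h
    rw [mul_apply_eq_comp, mul_apply_eq_comp, hE, ent_apply, ent_apply]
    exact h
  have hE1 : ‖star E - 1‖ ≤ |k| * θ := by
    rw [← norm_star, star_sub, star_star, star_one, norm_sub_rev]
    have e : (1 : H →L[ℂ] H) - E = ent (swap₂ - S) 0 1 := by
      refine ContinuousLinearMap.ext fun x => ?_
      simp [hE, ent_apply, swap₂_apply, inj_apply]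
    rw [e]
    exact (norm_ent_le _ _ _).trans (hSn.trans
      (mul_le_mul_of_nonneg_right (le_abs_self k) hθ))
  have hkey : ∀ a : Alg M, star E * (a : H →L[ℂ] H) = ((φ a : Alg N) : H →L[ℂ] H) * star E :=
    fun a => by
      have h := congrArg star (hcomm (star a))
      rw [star_mul, star_mul, hφ.star_eq, StarMemClass.coe_star, StarMemClass.coe_star, star_star,
        star_star] at h
      exact h
  refine unitary_of_similarity M N hk (star E) hE1 (fun x hx => ?_) (fun y hy => ?_)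
  · exact ⟨_, (φ ⟨x, hx⟩).2, hkey ⟨x, hx⟩⟩
  · obtain ⟨a, ha⟩ := hsur ⟨y, hy⟩
    refine ⟨_, a.2, ?_⟩
    rw [hkey, ha]

end Vale.Agent.P096.Linear
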